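import Mathlib

/-!
# P343: two-way nondeterministic finite automata (definitions)

The model of the problem file: a finite set of states, one initial state, a set of accepting
states, one read-only head on the tape `⊢ w ⊣`.  The head starts on `⊢` in the initial state; a
transition depends on the current state and the scanned symbol, changes the state and moves the
head left, right or not at all, never beyond an endmarker.  The word is accepted if some finite
computation reaches an accepting state.  The size is the number of states.
-/

namespace Vale.Agent.Lib.P343

/-- Tape symbols: the left endmarker, a letter of the alphabet, the right endmarker. -/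
inductive Sym (α : Type) : Type
  | left : Sym α
  | letter : α → Sym α
  | right : Sym α

/-- Head moves: left, stay, right. -/
inductive Dir : Type
  | L : Dir
  | S : Dir
  | R : Dir

/-- `d.move i j`: the move `d` takes the head from cell `i` to cell `j`. -/
def Dir.move : Dir → ℕ → ℕ → Prop
  | Dir.L, i, j => i = j + 1
  | Dir.S, i, j => j = i
  | Dir.R, i, j => j = i + 1

/-- A two-way nondeterministic finite automaton over the alphabet `α`: a finite type of states,
an initial state, a set of accepting states and a transition relation
(`δ q s q' d`: in state `q` scanning `s` the automaton may enter `q'` and move the head by `d`). -/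
structure TwoNFA (α : Type) where
  /-- the states -/
  Q : Type
  /-- there are finitely many states -/
  fin : Fintype Q
  /-- the initial state -/
  init : Q
  /-- the accepting states -/
  acc : Q → Prop
  /-- the transition relation -/
  δ : Q → Sym α → Q → Dir → Prop

attribute [instance] TwoNFA.fin

variable {α : Type}

/-- The tape `⊢ w ⊣`: cell `0` holds `⊢`, cells `1 .. |w|` hold the letters of `w`,
cell `|w| + 1` holds `⊣`. -/
def tape (w : List α) (i : ℕ) : Sym α :=
  if i = 0 then Sym.left
  else match w[i - 1]? with
    | some a => Sym.letter a
    | none => Sym.right

/-- One step of `A` on input `w`, between configurations (state, head position): a transition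
for the current state and scanned symbol, the head moving accordingly and staying on the cells
`0 .. |w| + 1`. -/
def TwoNFA.Step (A : TwoNFA α) (w : List α) (c c' : A.Q × ℕ) : Prop :=
  ∃ d : Dir, A.δ c.1 (tape w c.2) c'.1 d ∧ d.move c.2 c'.2 ∧ c'.2 ≤ w.length + 1

/-- `A` accepts `w`: some finite computation from the initial state on `⊢` reaches an
accepting state. -/
def TwoNFA.Accepts (A : TwoNFA α) (w : List α) : Prop :=
  ∃ (q : A.Q) (i : ℕ), A.acc q ∧ Relation.ReflTransGen (A.Step w) (A.init, 0) (q, i)

/-- The language recognized by `A`. -/
def TwoNFA.lang (A : TwoNFA α) : Set (List α) := {w | A.Accepts w}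

/-- The size of `A`: its number of states. -/
noncomputable def TwoNFA.size (A : TwoNFA α) : ℕ := Fintype.card A.Q

/-- `A` is one-way (a 1NFA): no transition moves the head left. -/
def TwoNFA.OneWay (A : TwoNFA α) : Prop :=
  ∀ (q : A.Q) (s : Sym α) (q' : A.Q) (d : Dir), A.δ q s q' d → d ≠ Dir.L

end Vale.Agent.Lib.P343
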