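import Vale.Agent.Lib.P343.Defs

/-!
# P343: a one-way automaton for the words whose length lies in the numerical semigroup `⟨n, n+1⟩`
-/

namespace Vale.Agent.Lib.P343

variable {α : Type}

/-- Transitions of the automaton `frob α n`: states `some 0, …, some n` and the accepting state
`none`.  On `⊢` state `0` moves right; on a letter `i ↦ i + 1`, `n ↦ 0` and `n - 1 ↦ 0`, always
moving right (cycles of lengths `n + 1` and `n` through state `0`); on `⊣` state `0` enters the
accepting state. -/
def frobδ (α : Type) (n : ℕ) : Option (Fin (n + 1)) → Sym α → Option (Fin (n + 1)) → Dir → Prop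
  | some i, Sym.left, some j, Dir.R => i.val = 0 ∧ j.val = 0
  | some i, Sym.letter _, some j, Dir.R =>
      j.val = i.val + 1 ∨ (i.val = n ∧ j.val = 0) ∨ (i.val + 1 = n ∧ j.val = 0)
  | some i, Sym.right, none, Dir.S => i.val = 0
  | _, _, _, _ => False

/-- The automaton: `n + 2` states, one-way, accepting the words whose length is `x n + y (n+1)`. -/
def frob (α : Type) (n : ℕ) : TwoNFA α where
  Q := Option (Fin (n + 1))
  fin := inferInstance
  init := some 0
  acc := fun q => q = none
  δ := frobδ α n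

theorem frob_size (n : ℕ) : (frob α n).size = n + 2 := by
  have h : Fintype.card (Option (Fin (n + 1))) = n + 2 := by
    rw [Fintype.card_option, Fintype.card_fin]
  exact h

theorem frob_oneway (n : ℕ) : (frob α n).OneWay := by
  intro q s q' d h
  change frobδ α n q s q' d at h
  cases q <;> cases s <;> cases q' <;> cases d <;> simp [frobδ] at h ⊢

theorem frobδ_left_iff {n : ℕ} (q q' : Option (Fin (n + 1))) (d : Dir) :
    frobδ α n q Sym.left q' d ↔
      ∃ i j : Fin (n + 1), q = some i ∧ q' = some j ∧ d = Dir.R ∧ i.val = 0 ∧ j.val = 0 := by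
  cases q <;> cases q' <;> cases d <;> simp [frobδ]

theorem frobδ_letter_iff {n : ℕ} (a : α) (q q' : Option (Fin (n + 1))) (d : Dir) :
    frobδ α n q (Sym.letter a) q' d ↔
      ∃ i j : Fin (n + 1), q = some i ∧ q' = some j ∧ d = Dir.R ∧
        (j.val = i.val + 1 ∨ (i.val = n ∧ j.val = 0) ∨ (i.val + 1 = n ∧ j.val = 0)) := by
  cases q <;> cases q' <;> cases d <;> simp [frobδ]

theorem frobδ_right_iff {n : ℕ} (q q' : Option (Fin (n + 1))) (d : Dir) :
    frobδ α n q Sym.right q' d ↔
      ∃ i : Fin (n + 1), q = some i ∧ q' = none ∧ d = Dir.S ∧ i.val = 0 := by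
  cases q <;> cases q' <;> cases d <;> simp [frobδ]

theorem tape_zero (w : List α) : tape w 0 = Sym.left := by
  simp [tape]

theorem tape_letter (w : List α) {p : ℕ} (h1 : 1 ≤ p) (h2 : p ≤ w.length) :
    ∃ a, tape w p = Sym.letter a := by
  have hp : p ≠ 0 := by omega
  have hlt : p - 1 < w.length := by omega
  refine ⟨w[p - 1], ?_⟩
  simp [tape, hp, List.getElem?_eq_getElem hlt]

theorem tape_right (w : List α) {p : ℕ} (h : w.length + 1 ≤ p) : tape w p = Sym.right := by
  have hp : p ≠ 0 := by omega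
  have hnone : w[p - 1]? = none := List.getElem?_eq_none (by omega)
  simp [tape, hp, hnone]

theorem tape_cases (w : List α) (p : ℕ) :
    (p = 0 ∧ tape w p = Sym.left) ∨ (1 ≤ p ∧ p ≤ w.length ∧ ∃ a, tape w p = Sym.letter a) ∨
      (w.length + 1 ≤ p ∧ tape w p = Sym.right) := by
  rcases Nat.eq_zero_or_pos p with h0 | h0
  · left
    subst h0
    exact ⟨rfl, tape_zero w⟩
  · right
    rcases Nat.lt_or_ge w.length p with h1 | h1
    · right
      exact ⟨h1, tape_right w h1⟩
    · left
      exact ⟨h0, h1, tape_letter w h0 h1⟩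

/-- The invariant of the reachable configurations of `frob α n`. -/
theorem frob_inv {n : ℕ} (w : List α) (c : Option (Fin (n + 1)) × ℕ)
    (h : Relation.ReflTransGen ((frob α n).Step w) (some 0, 0) c) :
    (∀ i : Fin (n + 1), c.1 = some i → (c.2 = 0 ∧ i.val = 0) ∨
      (c.2 ≤ w.length + 1 ∧ ∃ x y : ℕ, c.2 = x * n + y * (n + 1) + i.val + 1)) ∧
    (c.1 = none → ∃ x y : ℕ, w.length = x * n + y * (n + 1)) := by
  induction h with
  | refl =>
    refine ⟨fun i hi => Or.inl ⟨rfl, ?_⟩, fun h => ?_⟩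
    · have h0 : i = 0 := (Option.some.inj hi).symm
      rw [h0]
      simp
    · cases h
  | tail hab hbc ih =>
    rename_i b c
    obtain ⟨bq, p⟩ := b
    obtain ⟨cq, p'⟩ := c
    obtain ⟨d, hδ, hmove, hle⟩ := hbc
    change frobδ α n bq (tape w p) cq d at hδ
    change d.move p p' at hmove
    change p' ≤ w.length + 1 at hle
    have ih1 : ∀ i : Fin (n + 1), bq = some i → (p = 0 ∧ i.val = 0) ∨
      (p ≤ w.length + 1 ∧ ∃ x y : ℕ, p = x * n + y * (n + 1) + i.val + 1) := ih.1
    change (∀ i : Fin (n + 1), cq = some i → (p' = 0 ∧ i.val = 0) ∨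
      (p' ≤ w.length + 1 ∧ ∃ x y : ℕ, p' = x * n + y * (n + 1) + i.val + 1)) ∧
      (cq = none → ∃ x y : ℕ, w.length = x * n + y * (n + 1))
    rcases tape_cases w p with ⟨hp0, ht⟩ | ⟨hp1, hp2, a, ht⟩ | ⟨hp3, ht⟩
    · rw [ht, frobδ_left_iff] at hδ
      obtain ⟨i, j, rfl, rfl, rfl, hi0, hj0⟩ := hδ
      have hp' : p' = p + 1 := hmove
      refine ⟨fun j' hj' => Or.inr ⟨hle, 0, 0, ?_⟩, fun h => by cases h⟩
      have hjj : j' = j := (Option.some.inj hj').symm
      subst hjj
      simp only [zero_mul, zero_add]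
      omega
    · rw [ht, frobδ_letter_iff] at hδ
      obtain ⟨i, j, rfl, rfl, rfl, hij⟩ := hδ
      have hp' : p' = p + 1 := hmove
      rcases ih1 i rfl with ⟨h0, _⟩ | ⟨hle', x, y, hxy⟩
      · omega
      · refine ⟨fun j' hj' => Or.inr ⟨hle, ?_⟩, fun h => by cases h⟩
        have hjj : j' = j := (Option.some.inj hj').symm
        subst hjj
        rcases hij with h1 | ⟨h1, h2⟩ | ⟨h1, h2⟩
        · exact ⟨x, y, by omega⟩
        · refine ⟨x, y + 1, ?_⟩
          have e : (y + 1) * (n + 1) = y * (n + 1) + n + 1 := by ring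
          rw [e]
          omega
        · refine ⟨x + 1, y, ?_⟩
          have e : (x + 1) * n = x * n + n := by ring
          rw [e]
          omega
    · rw [ht, frobδ_right_iff] at hδ
      obtain ⟨i, rfl, rfl, rfl, hi0⟩ := hδ
      have hp' : p' = p := hmove
      rcases ih1 i rfl with ⟨h0, _⟩ | ⟨hle', x, y, hxy⟩
      · omega
      · exact ⟨fun j' hj' => (by cases hj'), fun _ => ⟨x, y, by omega⟩⟩

theorem frob_step_letter {n : ℕ} (w : List α) {p : ℕ} (h1 : 1 ≤ p) (h2 : p ≤ w.length)
    (i j : Fin (n + 1))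
    (hij : j.val = i.val + 1 ∨ (i.val = n ∧ j.val = 0) ∨ (i.val + 1 = n ∧ j.val = 0)) :
    (frob α n).Step w (some i, p) (some j, p + 1) := by
  obtain ⟨a, ha⟩ := tape_letter w h1 h2
  refine ⟨Dir.R, ?_, ?_, ?_⟩
  · change frobδ α n (some i) (tape w p) (some j) Dir.R
    rw [ha, frobδ_letter_iff]
    exact ⟨i, j, rfl, rfl, rfl, hij⟩
  · change p + 1 = p + 1
    rfl
  · change p + 1 ≤ w.length + 1
    omega

theorem frob_walk {n : ℕ} (w : List α) {p : ℕ} (hp : 1 ≤ p)
    (h0 : Relation.ReflTransGen ((frob α n).Step w) (some 0, 0) (some 0, p)) :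
    ∀ (i : ℕ) (j : Fin (n + 1)), j.val = i → p + i ≤ w.length + 1 →
      Relation.ReflTransGen ((frob α n).Step w) (some 0, 0) (some j, p + i) := by
  intro i
  induction i with
  | zero =>
    intro j hj _
    have hj0 : j = 0 := Fin.ext (by simp [hj])
    rw [hj0]
    exact h0
  | succ i ih =>
    intro j hj hle
    have hlt : i < n + 1 := by
      have := j.isLt
      omega
    have h1 := ih ⟨i, hlt⟩ rfl (by omega)
    have h2 : (frob α n).Step w (some ⟨i, hlt⟩, p + i) (some j, p + i + 1) :=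
      frob_step_letter w (by omega) (by omega) _ _ (Or.inl hj)
    exact h1.tail h2

theorem frob_cycle_n {n : ℕ} (hn : 1 ≤ n) (w : List α) {p : ℕ} (hp : 1 ≤ p)
    (h0 : Relation.ReflTransGen ((frob α n).Step w) (some 0, 0) (some 0, p))
    (hle : p + n ≤ w.length + 1) :
    Relation.ReflTransGen ((frob α n).Step w) (some 0, 0) (some 0, p + n) := by
  have hlt : n - 1 < n + 1 := by omega
  have h1 := frob_walk w hp h0 (n - 1) ⟨n - 1, hlt⟩ rfl (by omega)
  have h2 : (frob α n).Step w (some ⟨n - 1, hlt⟩, p + (n - 1)) (some 0, p + (n - 1) + 1) :=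
    frob_step_letter w (by omega) (by omega) _ _
      (Or.inr (Or.inr ⟨by simp only; omega, by simp⟩))
  have h3 := h1.tail h2
  have e : p + (n - 1) + 1 = p + n := by omega
  rw [e] at h3
  exact h3

theorem frob_cycle_succ {n : ℕ} (w : List α) {p : ℕ} (hp : 1 ≤ p)
    (h0 : Relation.ReflTransGen ((frob α n).Step w) (some 0, 0) (some 0, p))
    (hle : p + n + 1 ≤ w.length + 1) :
    Relation.ReflTransGen ((frob α n).Step w) (some 0, 0) (some 0, p + n + 1) := by
  have hlt : n < n + 1 := by omega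
  have h1 := frob_walk w hp h0 n ⟨n, hlt⟩ rfl (by omega)
  have h2 : (frob α n).Step w (some ⟨n, hlt⟩, p + n) (some 0, p + n + 1) :=
    frob_step_letter w (by omega) (by omega) _ _ (Or.inr (Or.inl ⟨rfl, by simp⟩))
  exact h1.tail h2

theorem frob_reach_x {n : ℕ} (hn : 1 ≤ n) (w : List α) :
    ∀ x : ℕ, x * n ≤ w.length →
      Relation.ReflTransGen ((frob α n).Step w) (some 0, 0) (some 0, x * n + 1) := by
  intro x
  induction x with
  | zero =>
    intro _
    have hstep : (frob α n).Step w (some 0, 0) (some 0, 0 * n + 1) := by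
      refine ⟨Dir.R, ?_, ?_, ?_⟩
      · change frobδ α n (some 0) (tape w 0) (some 0) Dir.R
        rw [tape_zero, frobδ_left_iff]
        exact ⟨0, 0, rfl, rfl, rfl, by simp, by simp⟩
      · change 0 * n + 1 = 0 + 1
        simp
      · change 0 * n + 1 ≤ w.length + 1
        simp
    exact Relation.ReflTransGen.single hstep
  | succ x ih =>
    intro hle
    have e : (x + 1) * n = x * n + n := by ring
    rw [e] at hle ⊢
    have h1 := frob_cycle_n hn w (by omega) (ih (by omega)) (by omega)
    have e2 : x * n + 1 + n = x * n + n + 1 := by omega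
    rw [e2] at h1
    exact h1

theorem frob_reach_xy {n : ℕ} (hn : 1 ≤ n) (w : List α) (x : ℕ) :
    ∀ y : ℕ, x * n + y * (n + 1) ≤ w.length →
      Relation.ReflTransGen ((frob α n).Step w) (some 0, 0)
        (some 0, x * n + y * (n + 1) + 1) := by
  intro y
  induction y with
  | zero =>
    intro hle
    simp only [zero_mul, add_zero] at hle ⊢
    exact frob_reach_x hn w x hle
  | succ y ih =>
    intro hle
    have e : (y + 1) * (n + 1) = y * (n + 1) + n + 1 := by ring
    rw [e] at hle ⊢
    have h1 := frob_cycle_succ w (by omega) (ih (by omega)) (by omega)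
    have e2 : x * n + y * (n + 1) + 1 + n + 1 = x * n + (y * (n + 1) + n + 1) + 1 := by omega
    rw [e2] at h1
    exact h1

theorem frob_accepts {n : ℕ} (hn : 1 ≤ n) (w : List α) :
    (frob α n).Accepts w ↔ ∃ x y : ℕ, w.length = x * n + y * (n + 1) := by
  constructor
  · rintro ⟨q, i, hq, hreach⟩
    have hq' : q = none := hq
    exact (frob_inv w (q, i) hreach).2 hq'
  · rintro ⟨x, y, hxy⟩
    have h1 := frob_reach_xy hn w x y (le_of_eq hxy.symm)
    rw [← hxy] at h1
    have h2 : (frob α n).Step w (some 0, w.length + 1) (none, w.length + 1) := by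
      refine ⟨Dir.S, ?_, ?_, ?_⟩
      · change frobδ α n (some 0) (tape w (w.length + 1)) none Dir.S
        rw [tape_right w le_rfl, frobδ_right_iff]
        exact ⟨0, rfl, rfl, rfl, by simp⟩
      · change w.length + 1 = w.length + 1
        rfl
      · change w.length + 1 ≤ w.length + 1
        exact le_rfl
    exact ⟨none, w.length + 1, rfl, h1.tail h2⟩

/-- `n² - n - 1` is not of the form `x n + y (n+1)`. -/
theorem frob_gap {n : ℕ} (hn : 2 ≤ n) (x y : ℕ) : x * n + y * (n + 1) + n + 1 ≠ n ^ 2 := by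
  intro h
  have hdvd : n ∣ y + 1 := by
    have h1 : n ∣ n ^ 2 := dvd_pow_self n (by norm_num)
    have h2 : x * n + y * (n + 1) + n + 1 = (x + y + 1) * n + (y + 1) := by ring
    rw [h2] at h
    have h3 : n ∣ (x + y + 1) * n + (y + 1) := by
      rw [h]
      exact h1
    exact (Nat.dvd_add_right (dvd_mul_left n _)).mp h3
  have hle : n ≤ y + 1 := Nat.le_of_dvd (by omega) hdvd
  have h4 := Nat.mul_le_mul_right (n + 1) hle
  have h5 := Nat.zero_le (x * n)
  nlinarith

/-- Every `m ≥ n² - n` is of the form `x n + y (n+1)`. -/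
theorem frob_large {n : ℕ} (hn : 1 ≤ n) {m : ℕ} (hm : n ^ 2 ≤ m + n) :
    ∃ x y : ℕ, m = x * n + y * (n + 1) := by
  have hdm := Nat.div_add_mod m n
  have hr : m % n < n := Nat.mod_lt _ (by omega)
  have hq : n ≤ m / n + 1 := by
    by_contra hlt
    have hlt' : m / n + 2 ≤ n := by omega
    have h1 := Nat.mul_le_mul_left n hlt'
    nlinarith
  have hrq : m % n ≤ m / n := by omega
  obtain ⟨d, hd⟩ := Nat.exists_eq_add_of_le hrq
  refine ⟨d, m % n, ?_⟩
  rw [hd] at hdm
  nlinarith

end Vale.Agent.Lib.P343
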