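import Vale.Agent.Lib.P343.PumpLeft

/-!
# P343: pumping lemma for two-way nondeterministic automata on powers of one letter
-/

namespace Vale.Agent.Lib.P343

variable {α : Type}

/-- Cell `0` of the tape of `a^m` holds the left endmarker. -/
theorem tape_replicate_zero (a : α) (m : ℕ) : tape (List.replicate m a) 0 = Sym.left := by
  simp [tape]

/-- Cells `1 .. m` of the tape of `a^m` hold the letter `a`. -/
theorem tape_replicate_mid (a : α) {m i : ℕ} (h1 : 1 ≤ i) (h2 : i ≤ m) :
    tape (List.replicate m a) i = Sym.letter a := by
  have h0 : i ≠ 0 := by omega
  have h3 : (List.replicate m a)[i - 1]? = some a := by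
    rw [List.getElem?_replicate]
    rw [if_pos (by omega)]
  simp only [tape, if_neg h0, h3]

/-- Cell `m + 1` of the tape of `a^m` holds the right endmarker. -/
theorem tape_replicate_end (a : α) (m : ℕ) : tape (List.replicate m a) (m + 1) = Sym.right := by
  have h3 : (List.replicate m a)[m + 1 - 1]? = none := by
    rw [List.getElem?_replicate]
    rw [if_neg (by omega)]
  simp only [tape, if_neg (Nat.succ_ne_zero m), h3]

/-- A walk on the letter `a` inside the cells `1 .. m` is a computation on the input `a^m`. -/
theorem walk_to_steps (B : TwoNFA α) (a : α) (m : ℕ) {lo hi : ℕ} (hlo : 1 ≤ lo) (hhi : hi ≤ m)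
    {c c' : B.Q × ℕ} (hc : lo ≤ c.2 ∧ c.2 ≤ hi)
    (h : Walk (fun q q' d => B.δ q (Sym.letter a) q' d) lo hi c c') :
    Relation.ReflTransGen (B.Step (List.replicate m a)) c c' := by
  induction h with
  | refl => exact Relation.ReflTransGen.refl
  | tail hab hs ih =>
    have hr := Walk.range hab hc
    refine Relation.ReflTransGen.tail ih ?_
    obtain ⟨d, hd, hm, h3, h4⟩ := hs
    refine ⟨d, ?_, hm, ?_⟩
    · rw [tape_replicate_mid a (by omega) (by omega)]
      exact hd
    · rw [List.length_replicate]; omega

/-- If a two-way nondeterministic automaton `B` accepts `a^k` with `k` larger than its number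
of states `s`, then it accepts `a^(k + s!)`. -/
theorem accepts_pump (B : TwoNFA α) (a : α) {k : ℕ} (hk : B.size + 1 ≤ k)
    (h : B.Accepts (List.replicate k a)) :
    B.Accepts (List.replicate (k + B.size.factorial) a) := by
  obtain ⟨q, i, hacc, hreach⟩ := h
  have hk' : Fintype.card B.Q + 1 ≤ k := hk
  have hk1 : 1 ≤ k := by omega
  obtain ⟨D, hD⟩ : ∃ D, D = B.size.factorial := ⟨_, rfl⟩
  have hD' : D = (Fintype.card B.Q).factorial := hD
  rw [← hD]
  obtain ⟨K, hK⟩ : ∃ K, K = k + D := ⟨_, rfl⟩
  rw [← hK]
  have key : ∀ c : B.Q × ℕ,
      Relation.ReflTransGen (B.Step (List.replicate k a)) (B.init, 0) c →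
      c.2 ≤ k + 1 ∧
      (c.2 = 0 → Relation.ReflTransGen (B.Step (List.replicate K a)) (B.init, 0) (c.1, 0)) ∧
      (c.2 = k + 1 →
        Relation.ReflTransGen (B.Step (List.replicate K a)) (B.init, 0) (c.1, K + 1)) ∧
      (1 ≤ c.2 → c.2 ≤ k →
        (∃ q1, Relation.ReflTransGen (B.Step (List.replicate K a)) (B.init, 0) (q1, 1) ∧
          Walk (fun q q' d => B.δ q (Sym.letter a) q' d) 1 k (q1, 1) c) ∨
        (∃ q1, Relation.ReflTransGen (B.Step (List.replicate K a)) (B.init, 0) (q1, K) ∧
          Walk (fun q q' d => B.δ q (Sym.letter a) q' d) 1 k (q1, k) c)) := by
    intro c hc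
    induction hc with
    | refl =>
      refine ⟨Nat.zero_le _, fun _ => Relation.ReflTransGen.refl, fun h => ?_, fun h => ?_⟩
      · exact absurd h (by show (0 : ℕ) ≠ k + 1; omega)
      · exact absurd h (by show ¬ (1 ≤ 0); omega)
    | @tail b c hab hs ih =>
      obtain ⟨qb, ib⟩ := b
      obtain ⟨qc, ic⟩ := c
      obtain ⟨hb1, hb0, hbk, hbm⟩ := ih
      obtain ⟨d, hd, hm, hle⟩ := hs
      simp only [List.length_replicate] at hle hd hm hb1 hb0 hbk hbm ⊢
      rcases Nat.eq_zero_or_pos ib with h0 | hpos
      · -- the head is on the left endmarker
        subst h0
        have hR0 := hb0 rfl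
        rw [tape_replicate_zero] at hd
        have hic : ic ≤ 1 := by
          cases d <;> simp only [Dir.move] at hm <;> omega
        have hR : Relation.ReflTransGen (B.Step (List.replicate K a)) (B.init, 0) (qc, ic) := by
          refine Relation.ReflTransGen.tail hR0 ⟨d, ?_, hm, ?_⟩
          · show B.δ qb (tape (List.replicate K a) 0) qc d
            rw [tape_replicate_zero]; exact hd
          · show ic ≤ (List.replicate K a).length + 1
            rw [List.length_replicate]; omega
        refine ⟨hle, fun h => ?_, fun h => ?_, fun h1 h2 => ?_⟩
        · rw [h] at hR; exact hR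
        · omega
        · have e : ic = 1 := by omega
          rw [e] at hR ⊢
          exact Or.inl ⟨qc, hR, Relation.ReflTransGen.refl⟩
      · rcases Nat.lt_or_ge k ib with hgt | hle2
        · -- the head is on the right endmarker
          have hib : ib = k + 1 := by omega
          rw [hib] at hd hm
          have hRK := hbk hib
          rw [tape_replicate_end] at hd
          have hic : k ≤ ic := by
            cases d <;> simp only [Dir.move] at hm <;> omega
          have hR : Relation.ReflTransGen (B.Step (List.replicate K a)) (B.init, 0)
              (qc, ic + D) := by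
            refine Relation.ReflTransGen.tail hRK ⟨d, ?_, ?_, ?_⟩
            · show B.δ qb (tape (List.replicate K a) (K + 1)) qc d
              rw [tape_replicate_end]; exact hd
            · show d.move (K + 1) (ic + D)
              have hs := Dir.move_shift D hm
              have e : k + 1 + D = K + 1 := by omega
              rw [e] at hs; exact hs
            · show ic + D ≤ (List.replicate K a).length + 1
              rw [List.length_replicate]; omega
          refine ⟨hle, fun h => ?_, fun h => ?_, fun h1 h2 => ?_⟩
          · omega
          · have e : ic + D = K + 1 := by omega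
            rw [e] at hR; exact hR
          · have e : ic = k := by omega
            have e2 : ic + D = K := by omega
            rw [e2] at hR
            rw [e]
            exact Or.inr ⟨qc, hR, Relation.ReflTransGen.refl⟩
        · -- the head is on a letter
          rw [tape_replicate_mid a hpos hle2] at hd
          rcases Nat.eq_zero_or_pos ic with hc0 | hcpos
          · -- it leaves the block to the left
            have hib : ib = 1 := by
              cases d <;> simp only [Dir.move] at hm <;> omega
            have hR1 : Relation.ReflTransGen (B.Step (List.replicate K a)) (B.init, 0)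
                (qb, 1) := by
              rcases hbm hpos hle2 with ⟨q1, hq1, hw⟩ | ⟨q1, hq1, hw⟩
              · rw [hib] at hw
                exact hq1.trans (walk_to_steps B a K (le_refl 1) (by omega : k ≤ K)
                  ⟨le_refl 1, hk1⟩ hw)
              · rw [hib] at hw
                have hp := pump_left hk' hw
                rw [← hD', ← hK] at hp
                exact hq1.trans (walk_to_steps B a K (le_refl 1) (le_refl K)
                  ⟨by show 1 ≤ K; omega, le_refl K⟩ hp)
            have hR : Relation.ReflTransGen (B.Step (List.replicate K a)) (B.init, 0)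
                (qc, 0) := by
              refine Relation.ReflTransGen.tail hR1 ⟨d, ?_, ?_, ?_⟩
              · show B.δ qb (tape (List.replicate K a) 1) qc d
                rw [tape_replicate_mid a (le_refl 1) (by omega)]; exact hd
              · show d.move 1 0
                rw [hib, hc0] at hm; exact hm
              · exact Nat.zero_le _
            refine ⟨hle, fun _ => hR, fun h => ?_, fun h1 h2 => ?_⟩
            · omega
            · omega
          · rcases Nat.lt_or_ge k ic with hcgt | hcle
            · -- it leaves the block to the right
              have hic : ic = k + 1 := by omega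
              have hib : ib = k := by
                cases d <;> simp only [Dir.move] at hm <;> omega
              have hR1 : Relation.ReflTransGen (B.Step (List.replicate K a)) (B.init, 0)
                  (qb, K) := by
                rcases hbm hpos hle2 with ⟨q1, hq1, hw⟩ | ⟨q1, hq1, hw⟩
                · rw [hib] at hw
                  have hp := pump_right hk' hw
                  rw [← hD', ← hK] at hp
                  exact hq1.trans (walk_to_steps B a K (le_refl 1) (le_refl K)
                    ⟨le_refl 1, by show 1 ≤ K; omega⟩ hp)
                · rw [hib] at hw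
                  have hp := Walk.mono (lo' := 1) (hi' := K) (by omega) (by omega)
                    (Walk.shift D hw)
                  have e : k + D = K := by omega
                  simp only [e] at hp
                  exact hq1.trans (walk_to_steps B a K (le_refl 1) (le_refl K)
                    ⟨by show 1 ≤ K; omega, le_refl K⟩ hp)
              have hR : Relation.ReflTransGen (B.Step (List.replicate K a)) (B.init, 0)
                  (qc, K + 1) := by
                refine Relation.ReflTransGen.tail hR1 ⟨d, ?_, ?_, ?_⟩
                · show B.δ qb (tape (List.replicate K a) K) qc d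
                  rw [tape_replicate_mid a (by omega) (le_refl K)]; exact hd
                · show d.move K (K + 1)
                  have hs := Dir.move_shift D hm
                  rw [hib, hic] at hs
                  have e1 : k + D = K := by omega
                  have e2 : k + 1 + D = K + 1 := by omega
                  rw [e1, e2] at hs; exact hs
                · show K + 1 ≤ (List.replicate K a).length + 1
                  rw [List.length_replicate]
              refine ⟨hle, fun h => ?_, fun _ => hR, fun h1 h2 => ?_⟩
              · omega
              · omega
            · -- it stays inside the block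
              have hstep : WStep (fun q q' d => B.δ q (Sym.letter a) q' d) 1 k
                  (qb, ib) (qc, ic) := ⟨d, hd, hm, hcpos, hcle⟩
              refine ⟨hle, fun h => ?_, fun h => ?_, fun _ _ => ?_⟩
              · omega
              · omega
              · rcases hbm hpos hle2 with ⟨q1, hq1, hw⟩ | ⟨q1, hq1, hw⟩
                · exact Or.inl ⟨q1, hq1, Relation.ReflTransGen.tail hw hstep⟩
                · exact Or.inr ⟨q1, hq1, Relation.ReflTransGen.tail hw hstep⟩
  obtain ⟨hi1, hi0, hik, him⟩ := key (q, i) hreach
  simp only at hi1 hi0 hik him
  rcases Nat.eq_zero_or_pos i with h0 | hpos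
  · exact ⟨q, 0, hacc, hi0 h0⟩
  · rcases Nat.lt_or_ge k i with hgt | hle
    · exact ⟨q, K + 1, hacc, hik (by omega)⟩
    · rcases him hpos hle with ⟨q1, hq1, hw⟩ | ⟨q1, hq1, hw⟩
      · exact ⟨q, i, hacc, hq1.trans (walk_to_steps B a K (le_refl 1) (by omega : k ≤ K)
          ⟨le_refl 1, hk1⟩ hw)⟩
      · have hp := Walk.mono (lo' := 1) (hi' := K) (by omega) (by omega) (Walk.shift D hw)
        have e : k + D = K := by omega
        simp only [e] at hp
        exact ⟨q, i + D, hacc, hq1.trans (walk_to_steps B a K (le_refl 1) (le_refl K)
          ⟨by show 1 ≤ K; omega, le_refl K⟩ hp)⟩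

end Vale.Agent.Lib.P343
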