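import Vale.Agent.Lib.P343.PumpRight

/-!
# P343: mirror images of walks, and pumping a right-to-left traversal
-/

namespace Vale.Agent.Lib.P343

variable {Q : Type}

/-- The opposite head move. -/
def Dir.flip : Dir → Dir
  | Dir.L => Dir.R
  | Dir.S => Dir.S
  | Dir.R => Dir.L

/-- The transition relation with left and right exchanged. -/
def flipT (t : Q → Q → Dir → Prop) : Q → Q → Dir → Prop := fun q q' d => t q q' d.flip

theorem Dir.flip_flip (d : Dir) : d.flip.flip = d := by
  cases d <;> rfl

theorem flipT_flipT (t : Q → Q → Dir → Prop) : flipT (flipT t) = t := by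
  funext q q' d
  simp only [flipT, Dir.flip_flip]

/-- Mirror image of a walk: reflect the positions in `M`. -/
theorem Walk.mirror {t : Q → Q → Dir → Prop} {lo hi : ℕ} (M : ℕ) (hM : hi ≤ M) {c c' : Q × ℕ}
    (hc : lo ≤ c.2 ∧ c.2 ≤ hi) (h : Walk t lo hi c c') :
    Walk (flipT t) (M - hi) (M - lo) (c.1, M - c.2) (c'.1, M - c'.2) := by
  induction h with
  | refl => exact Relation.ReflTransGen.refl
  | tail hb hs ih =>
    refine Relation.ReflTransGen.tail ih ?_
    have hbr := Walk.range hb hc
    obtain ⟨d, hd, hm, h3, h4⟩ := hs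
    refine ⟨d.flip, ?_, ?_, ?_, ?_⟩
    · show t _ _ d.flip.flip
      rw [Dir.flip_flip]
      exact hd
    · cases d <;> simp only [Dir.flip, Dir.move] at hm ⊢ <;> omega
    · dsimp only
      omega
    · dsimp only
      omega

/-- A right-to-left traversal of a block of `k` equal letters, `k` larger than the number of
states, can be pumped. -/
theorem pump_left [Fintype Q] {t : Q → Q → Dir → Prop} {k : ℕ} {q1 q : Q}
    (hk : Fintype.card Q + 1 ≤ k) (h : Walk t 1 k (q1, k) (q, 1)) :
    Walk t 1 (k + (Fintype.card Q).factorial) (q1, k + (Fintype.card Q).factorial) (q, 1) := by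
  have hk1 : 1 ≤ k := by omega
  have h1 := Walk.mirror (k + 1) (Nat.le_succ k) (c := (q1, k)) (c' := (q, 1))
    ⟨hk1, le_rfl⟩ h
  have e1 : k + 1 - k = 1 := by omega
  have e2 : k + 1 - 1 = k := by omega
  simp only [e1, e2] at h1
  have h2 := pump_right hk h1
  obtain ⟨D, hD⟩ : ∃ D, D = (Fintype.card Q).factorial := ⟨_, rfl⟩
  rw [← hD] at h2 ⊢
  have hkD : 1 ≤ k + D := by omega
  have h3 := Walk.mirror (k + D + 1) (Nat.le_succ (k + D)) (c := (q1, 1)) (c' := (q, k + D))
    ⟨le_rfl, hkD⟩ h2
  have e3 : k + D + 1 - (k + D) = 1 := by omega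
  have e4 : k + D + 1 - 1 = k + D := by omega
  simp only [e3, e4, flipT_flipT] at h3
  exact h3

end Vale.Agent.Lib.P343
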