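import Vale.Agent.Lib.P343.Walk

/-!
# P343: pumping a left-to-right traversal of a block of equal letters
-/

namespace Vale.Agent.Lib.P343

variable {Q : Type}

/-- First-visit splitting: a walk starting at or to the left of position `m` either stays to
the left of `m`, or reaches `m` for a first time and continues from there. -/
theorem pumpright_split {t : Q → Q → Dir → Prop} {lo hi : ℕ} {c0 c : Q × ℕ}
    (h : Walk t lo hi c0 c) (m : ℕ) (hm : c0.2 ≤ m) :
    (c.2 < m ∧ Walk t lo (m - 1) c0 c) ∨
      ∃ r : Q, Walk t lo m c0 (r, m) ∧ Walk t lo hi (r, m) c := by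
  induction h with
  | refl =>
    rcases Nat.lt_or_ge c0.2 m with h1 | h1
    · exact Or.inl ⟨h1, Relation.ReflTransGen.refl⟩
    · have h2 : c0.2 = m := le_antisymm hm h1
      have h3 : (c0.1, m) = c0 := by rw [← h2]
      refine Or.inr ⟨c0.1, ?_, ?_⟩
      · rw [h3]
        exact Relation.ReflTransGen.refl
      · rw [h3]
        exact Relation.ReflTransGen.refl
  | @tail b c _ hs ih =>
    rcases ih with ⟨hlt, hpre⟩ | ⟨r, h1, h2⟩
    · obtain ⟨d, hd, hmv, h3, h4⟩ := hs
      have hle : c.2 ≤ b.2 + 1 := by
        cases d <;> simp only [Dir.move] at hmv <;> omega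
      rcases Nat.lt_or_ge c.2 m with h5 | h5
      · exact Or.inl ⟨h5, Relation.ReflTransGen.tail hpre ⟨d, hd, hmv, h3, by omega⟩⟩
      · have h6 : c.2 = m := by omega
        have h7 : (c.1, m) = c := by rw [← h6]
        refine Or.inr ⟨c.1, ?_, ?_⟩
        · rw [h7]
          exact Relation.ReflTransGen.tail (Walk.mono le_rfl (Nat.sub_le m 1) hpre)
            ⟨d, hd, hmv, h3, by omega⟩
        · rw [h7]
          exact Relation.ReflTransGen.refl
    · exact Or.inr ⟨r, h1, Relation.ReflTransGen.tail h2 hs⟩

open Classical in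
/-- The states in which a traversal first visits the positions `1, 2, 3, ...`
(`pumprightSeq t k q1 q n` belongs to position `n + 1`). -/
noncomputable def pumprightSeq (t : Q → Q → Dir → Prop) (k : ℕ) (q1 q : Q) : ℕ → Q
  | 0 => q1
  | n + 1 =>
    if hh : ∃ r' : Q, Walk t 1 (n + 2) (pumprightSeq t k q1 q n, n + 1) (r', n + 2) ∧
        Walk t 1 k (r', n + 2) (q, k)
    then Classical.choose hh else q1

theorem pumpright_seq_next {t : Q → Q → Dir → Prop} {k : ℕ} {q1 q : Q} (n : ℕ)
    (hn : n + 2 ≤ k) (hw : Walk t 1 k (pumprightSeq t k q1 q n, n + 1) (q, k)) :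
    Walk t 1 (n + 2) (pumprightSeq t k q1 q n, n + 1) (pumprightSeq t k q1 q (n + 1), n + 2) ∧
      Walk t 1 k (pumprightSeq t k q1 q (n + 1), n + 2) (q, k) := by
  have hh : ∃ r' : Q, Walk t 1 (n + 2) (pumprightSeq t k q1 q n, n + 1) (r', n + 2) ∧
      Walk t 1 k (r', n + 2) (q, k) := by
    rcases pumpright_split hw (n + 2) (by simp) with ⟨hlt, _⟩ | hr
    · simp only at hlt
      omega
    · exact hr
  have he : pumprightSeq t k q1 q (n + 1) = Classical.choose hh := by
    rw [pumprightSeq, dif_pos hh]
  rw [he]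
  exact Classical.choose_spec hh

theorem pumpright_seq_rest {t : Q → Q → Dir → Prop} {k : ℕ} {q1 q : Q}
    (h : Walk t 1 k (q1, 1) (q, k)) :
    ∀ n, n + 1 ≤ k → Walk t 1 k (pumprightSeq t k q1 q n, n + 1) (q, k) := by
  intro n
  induction n with
  | zero =>
    intro _
    exact h
  | succ n ih =>
    intro hn
    exact (pumpright_seq_next n hn (ih (by omega))).2

theorem pumpright_seq_link {t : Q → Q → Dir → Prop} {k : ℕ} {q1 q : Q}
    (h : Walk t 1 k (q1, 1) (q, k)) (n : ℕ) (hn : n + 2 ≤ k) :
    Walk t 1 (n + 2) (pumprightSeq t k q1 q n, n + 1) (pumprightSeq t k q1 q (n + 1), n + 2) :=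
  (pumpright_seq_next n hn (pumpright_seq_rest h n (by omega))).1

theorem pumpright_chain {t : Q → Q → Dir → Prop} {k : ℕ} {q1 q : Q}
    (h : Walk t 1 k (q1, 1) (q, k)) (i : ℕ) :
    ∀ j, i ≤ j → j + 1 ≤ k →
      Walk t 1 (j + 1) (pumprightSeq t k q1 q i, i + 1) (pumprightSeq t k q1 q j, j + 1) := by
  intro j hij
  induction j, hij using Nat.le_induction with
  | base =>
    intro _
    exact Relation.ReflTransGen.refl
  | succ j hij ih =>
    intro hj
    exact Walk.trans (Walk.mono le_rfl (by omega) (ih (by omega)))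
      (pumpright_seq_link h j (by omega))

/-- Iterating a loop that advances the position by `c`. -/
theorem pumpright_loop {t : Q → Q → Dir → Prop} {a b c : ℕ} {r : Q} (hb : b = a + c)
    (hloop : Walk t 1 b (r, a) (r, b)) :
    ∀ m, Walk t 1 (b + m * c) (r, a) (r, a + m * c) := by
  intro m
  induction m with
  | zero =>
    simp only [Nat.zero_mul, Nat.add_zero]
    exact Relation.ReflTransGen.refl
  | succ m ih =>
    have hs : Walk t (1 + m * c) (b + m * c) (r, a + m * c) (r, b + m * c) :=
      Walk.shift (m * c) hloop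
    have e : a + (m + 1) * c = b + m * c := by
      rw [hb, Nat.succ_mul]
      omega
    have e2 : b + m * c ≤ b + (m + 1) * c := by
      rw [Nat.succ_mul]
      omega
    rw [e]
    exact Walk.trans (Walk.mono le_rfl e2 ih) (Walk.mono (by omega) e2 hs)

/-- A left-to-right traversal of a block of `k` equal letters, `k` larger than the number of
states, can be pumped: the same pair of states is realized on the block of `k + |Q|!` letters. -/
theorem pump_right [Fintype Q] {t : Q → Q → Dir → Prop} {k : ℕ} {q1 q : Q}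
    (hk : Fintype.card Q + 1 ≤ k) (h : Walk t 1 k (q1, 1) (q, k)) :
    Walk t 1 (k + (Fintype.card Q).factorial) (q1, 1) (q, k + (Fintype.card Q).factorial) := by
  classical
  have key : ∀ i j : ℕ, i < j → j ≤ Fintype.card Q →
      pumprightSeq t k q1 q i = pumprightSeq t k q1 q j →
      Walk t 1 (k + (Fintype.card Q).factorial) (q1, 1)
        (q, k + (Fintype.card Q).factorial) := by
    intro i j hij hj hfij
    have hpre : Walk t 1 (i + 1) (q1, 1) (pumprightSeq t k q1 q i, i + 1) :=
      pumpright_chain h 0 i (Nat.zero_le i) (by omega)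
    have hloop : Walk t 1 (j + 1) (pumprightSeq t k q1 q i, i + 1)
        (pumprightSeq t k q1 q j, j + 1) := pumpright_chain h i j hij.le (by omega)
    rw [← hfij] at hloop
    have hrest : Walk t 1 k (pumprightSeq t k q1 q i, i + 1) (q, k) :=
      pumpright_seq_rest h i (by omega)
    obtain ⟨T, hT⟩ : j - i ∣ (Fintype.card Q).factorial :=
      Nat.dvd_factorial (by omega) (by omega)
    have hloops := pumpright_loop (a := i + 1) (b := j + 1) (c := j - i) (by omega) hloop T
    have e : T * (j - i) = (Fintype.card Q).factorial := by rw [hT, Nat.mul_comm]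
    rw [e] at hloops
    have hshift : Walk t (1 + (Fintype.card Q).factorial) (k + (Fintype.card Q).factorial)
        (pumprightSeq t k q1 q i, i + 1 + (Fintype.card Q).factorial)
        (q, k + (Fintype.card Q).factorial) := Walk.shift ((Fintype.card Q).factorial) hrest
    exact Walk.trans (Walk.mono le_rfl (by omega) hpre)
      (Walk.trans (Walk.mono le_rfl (by omega) hloops) (Walk.mono (by omega) le_rfl hshift))
  obtain ⟨x, y, hxy, hfxy⟩ := Fintype.exists_ne_map_eq_of_card_lt
    (fun i : Fin (Fintype.card Q + 1) => pumprightSeq t k q1 q i) (by simp)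
  have hx := x.isLt
  have hy := y.isLt
  rcases lt_or_gt_of_ne (fun hh => hxy (Fin.ext hh)) with hlt | hlt
  · exact key x y hlt (by omega) hfxy
  · exact key y x hlt (by omega) hfxy.symm

end Vale.Agent.Lib.P343
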