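import Vale.Agent.Lib.P343.Defs

/-!
# P343: walks of a two-way automaton inside a block of equal letters
-/

namespace Vale.Agent.Lib.P343

variable {Q : Type}

/-- One step of a walk over cells that all hold the same letter: `t q q' d` is the transition
relation on that letter; the new position must lie in `[lo, hi]`. -/
def WStep (t : Q → Q → Dir → Prop) (lo hi : ℕ) (c c' : Q × ℕ) : Prop :=
  ∃ d : Dir, t c.1 c'.1 d ∧ d.move c.2 c'.2 ∧ lo ≤ c'.2 ∧ c'.2 ≤ hi

/-- Walks inside `[lo, hi]`. -/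
def Walk (t : Q → Q → Dir → Prop) (lo hi : ℕ) : Q × ℕ → Q × ℕ → Prop :=
  Relation.ReflTransGen (WStep t lo hi)

theorem Walk.mono {t : Q → Q → Dir → Prop} {lo hi lo' hi' : ℕ} (h1 : lo' ≤ lo) (h2 : hi ≤ hi')
    {c c' : Q × ℕ} (h : Walk t lo hi c c') : Walk t lo' hi' c c' := by
  refine Relation.ReflTransGen.mono ?_ _ _ h
  rintro a b ⟨d, hd, hm, h3, h4⟩
  exact ⟨d, hd, hm, le_trans h1 h3, le_trans h4 h2⟩

theorem Dir.move_shift {d : Dir} {i j : ℕ} (D : ℕ) (h : d.move i j) : d.move (i + D) (j + D) := by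
  cases d <;> simp only [Dir.move] at h ⊢ <;> omega

theorem Walk.shift {t : Q → Q → Dir → Prop} {lo hi : ℕ} (D : ℕ) {c c' : Q × ℕ}
    (h : Walk t lo hi c c') : Walk t (lo + D) (hi + D) (c.1, c.2 + D) (c'.1, c'.2 + D) := by
  induction h with
  | refl => exact Relation.ReflTransGen.refl
  | tail _ hs ih =>
    refine Relation.ReflTransGen.tail ih ?_
    obtain ⟨d, hd, hm, h3, h4⟩ := hs
    exact ⟨d, hd, Dir.move_shift D hm, by simpa using h3, by simpa using h4⟩

theorem Walk.trans {t : Q → Q → Dir → Prop} {lo hi : ℕ} {a b c : Q × ℕ}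
    (h1 : Walk t lo hi a b) (h2 : Walk t lo hi b c) : Walk t lo hi a c :=
  Relation.ReflTransGen.trans h1 h2

/-- The end of a walk inside `[lo, hi]` that starts inside `[lo, hi]` is inside `[lo, hi]`. -/
theorem Walk.range {t : Q → Q → Dir → Prop} {lo hi : ℕ} {c c' : Q × ℕ}
    (h : Walk t lo hi c c') (hc : lo ≤ c.2 ∧ c.2 ≤ hi) : lo ≤ c'.2 ∧ c'.2 ≤ hi := by
  induction h with
  | refl => exact hc
  | tail _ hs _ =>
    obtain ⟨d, _, _, h3, h4⟩ := hs
    exact ⟨h3, h4⟩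

end Vale.Agent.Lib.P343
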